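import Vale.Agent.P207.N4.Geo.LogicD
import Vale.Agent.P207.N5.H709.PicOf
import Vale.Agent.P207.N4.H391.SmB
import Vale.Agent.P207.N4.H9.NuC
import Vale.Agent.P207.H883.St8
import Vale.Agent.P207.H883.FlatG

/-!
# P207, quarter pinching: the logic from the steps 1 to 7 and the step 8

`LogicV` : the statement of the logic for the rates `a ≤ U ≤ b`, `b < 2 a`.
`Steps17`, `Step8` are the statements of the two parts of the logic; `logic_of` puts them together.
-/

open Set Filter Topology Metric MeasureTheory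
open scoped ContDiff ENNReal

noncomputable section

namespace Vale.Agent.P207.N4.V

open Vale.Agent.P207.N3

/-- the logic for the rates `a ≤ U ≤ b`, `b < 2 a` -/
def LogicV [Dim] : Prop := LogicQ fun a b => b < 2 * a

/-- steps 1 to 7: the smooth alternative -/
def Steps17 [Dim] : Prop :=
  ∀ {Γ X B V : Type} [Group Γ] [MetricSpace X] [ProperSpace X] [MulAction Γ X]
    [IsIsometricSMul Γ X] [TopologicalSpace B] [CompactSpace B] [T2Space B] [MulAction Γ B]
    [ContinuousConstSMul Γ B] [MeasurableSpace B] [BorelSpace B]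
    [NormedAddCommGroup V] [NormedSpace ℝ V] [FiniteDimensional ℝ V]
    (L : Leaf Γ X B) (P : PicG L V), SmoothAlt P.S.T

/-- step 8: the quadratic field -/
def Step8 [Dim] : Prop :=
  ∀ {Γ X B V : Type} [Group Γ] [MetricSpace X] [ProperSpace X] [MulAction Γ X]
    [IsIsometricSMul Γ X] [TopologicalSpace B] [CompactSpace B] [T2Space B] [MulAction Γ B]
    [ContinuousConstSMul Γ B] [MeasurableSpace B] [BorelSpace B]
    [NormedAddCommGroup V] [NormedSpace ℝ V] [FiniteDimensional ℝ V]
    (L : Leaf Γ X B) (P : PicG L V), SmoothAlt P.S.T → H391.SmB L P.S.A.D →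
    Nonempty (H883.St8 L)

/-- **The logic from its parts.** -/
theorem logic_of [Dim] (h2 : Steps17) (h3 : Step8) : LogicV := by
  intro Γ X B V _ _ _ _ _ _ _ _ _ _ _ _ _ _ _ L S C a b ha hab hp hlo hhi hcal
  obtain ⟨P, hPS, -, -⟩ := H709.picG_of S C ha hab hp hlo hhi
  subst hPS
  have hA : SmoothAlt P.S.T := h2 L P
  obtain ⟨x₀, hx₀⟩ := P.S.X.exists_base
  have hS : H391.SmB L P.S.A.D := H391.smB_of_alt P.S.I P.S.M P.S.H hA hx₀ P.S.A.D P.S.A.D_eq
  obtain ⟨T⟩ := h3 L P hA hS
  exact H9.nu_of_flat (T.flatM P.S.A) hcal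

end Vale.Agent.P207.N4.V
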