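import Vale.Agent.P207.N5.Geo.Asm
import Vale.Agent.P207.N5.H478.Main
import Vale.Agent.P207.N5.H391.Step8

/-!
# P207, quarter pinching: the logic

The stable subspaces are smooth along the unstable leaves, and the leaves carry invariant flat
structures, as soon as `a ≤ U ≤ b` with `b < 2 a`.
-/

noncomputable section

namespace Vale.Agent.P207.N4.V

/-- **The logic for the rates `a ≤ U ≤ b`, `b < 2 a`.** -/
theorem logicV [Dim] : LogicV := logic_of steps17 H391.step8

end Vale.Agent.P207.N4.V
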